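import Mathlib
import Crest.Prelude.Def_ModularData

set_option autoImplicit false

namespace Crest.Agent.R84

open Crest.OpAlg MeasureTheory Filter
open scoped Topology InnerProductSpace

section avg

variable {E : Type*} [NormedAddCommGroup E] [NormedSpace ℝ E]

/-- symmetric window average -/
noncomputable def avg (f : ℝ → E) (k : ℕ) : E := (2 * (k : ℝ))⁻¹ • ∫ t in (-(k : ℝ))..(k : ℝ), f t

lemma windowMean_eq (f : ℝ → ℝ) (k : ℕ) : windowMean f k = avg f k := by
  have hk : -(k : ℝ) ≤ k := by have : (0 : ℝ) ≤ k := Nat.cast_nonneg k; linarith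
  rw [windowMean, setAverage_eq, avg, intervalIntegral.integral_of_le hk,
    integral_Icc_eq_integral_Ioc, Real.volume_real_Icc_of_le hk]
  congr 2
  ring

lemma avg_add {f g : ℝ → E} (hf : Continuous f) (hg : Continuous g) (k : ℕ) :
    avg (fun t => f t + g t) k = avg f k + avg g k := by
  rw [avg, avg, avg, intervalIntegral.integral_add (hf.intervalIntegrable _ _)
    (hg.intervalIntegrable _ _), smul_add]

lemma avg_sub {f g : ℝ → E} (hf : Continuous f) (hg : Continuous g) (k : ℕ) :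
    avg (fun t => f t - g t) k = avg f k - avg g k := by
  rw [avg, avg, avg, intervalIntegral.integral_sub (hf.intervalIntegrable _ _)
    (hg.intervalIntegrable _ _), smul_sub]

lemma avg_clm [CompleteSpace E] {F : Type*} [NormedAddCommGroup F] [NormedSpace ℝ F]
    [CompleteSpace F] (L : E →L[ℝ] F) {f : ℝ → E} (hf : Continuous f) (k : ℕ) :
    L (avg f k) = avg (fun t => L (f t)) k := by
  rw [avg, avg, map_smul, L.intervalIntegral_comp_comm (hf.intervalIntegrable _ _)]

lemma avg_const_mul (c : ℝ) (f : ℝ → ℝ) (k : ℕ) : avg (fun t => c * f t) k = c * avg f k := by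
  rw [avg, avg, intervalIntegral.integral_const_mul, smul_eq_mul, smul_eq_mul]
  ring

lemma norm_avg_le {f : ℝ → E} {C : ℝ} (hC : ∀ t, ‖f t‖ ≤ C) (k : ℕ) : ‖avg f k‖ ≤ C := by
  have hC0 : 0 ≤ C := (norm_nonneg _).trans (hC 0)
  rcases Nat.eq_zero_or_pos k with rfl | hk
  · simpa [avg] using hC0
  have hk' : (0 : ℝ) < k := by exact_mod_cast hk
  rw [avg, norm_smul]
  have h := intervalIntegral.norm_integral_le_of_norm_le_const (a := -(k : ℝ)) (b := k)
    (f := f) (C := C) (fun t _ => hC t)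
  have h2 : |(k : ℝ) - -(k : ℝ)| = 2 * k := by rw [abs_of_pos (by linarith)]; ring
  rw [h2] at h
  rw [Real.norm_eq_abs, abs_of_pos (by positivity)]
  calc (2 * (k : ℝ))⁻¹ * ‖∫ t in (-(k : ℝ))..(k : ℝ), f t‖ ≤ (2 * (k : ℝ))⁻¹ * (C * (2 * k)) := by
        gcongr
    _ = C := by field_simp

lemma avg_neg (f : ℝ → E) (k : ℕ) : avg (fun t => f (-t)) k = avg f k := by
  rw [avg, avg, intervalIntegral.integral_comp_neg, neg_neg]

lemma avg_const [CompleteSpace E] (c : E) {k : ℕ} (hk : 0 < k) : avg (fun _ => c) k = c := by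
  have hk' : (0 : ℝ) < k := by exact_mod_cast hk
  rw [avg, intervalIntegral.integral_const, smul_smul]
  have : (2 * (k : ℝ))⁻¹ * ((k : ℝ) - -(k : ℝ)) = 1 := by field_simp; ring
  rw [this, one_smul]

lemma tendsto_avg_shift {f : ℝ → E} (hf : Continuous f) {C : ℝ} (hC : ∀ t, ‖f t‖ ≤ C) (r : ℝ) :
    Tendsto (fun k => avg (fun t => f (t + r)) k - avg f k) atTop (𝓝 0) := by
  have key : ∀ k : ℕ, ‖avg (fun t => f (t + r)) k - avg f k‖ ≤ (C * |r|) * (k : ℝ)⁻¹ := by
    intro k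
    rw [avg, avg, ← smul_sub, intervalIntegral.integral_comp_add_right,
      intervalIntegral.integral_interval_sub_interval_comm' (hf.intervalIntegrable _ _)
        (hf.intervalIntegrable _ _) (hf.intervalIntegrable _ _), norm_smul]
    have h1 := intervalIntegral.norm_integral_le_of_norm_le_const (a := (k : ℝ)) (b := k + r)
      (f := f) (C := C) (fun t _ => hC t)
    have h2 := intervalIntegral.norm_integral_le_of_norm_le_const (a := -(k : ℝ)) (b := -k + r)
      (f := f) (C := C) (fun t _ => hC t)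
    simp only [add_sub_cancel_left] at h1 h2
    rw [Real.norm_eq_abs, abs_of_nonneg (by positivity)]
    calc (2 * (k : ℝ))⁻¹ * ‖(∫ t in (k : ℝ)..(k + r), f t) - ∫ t in (-(k : ℝ))..(-k + r), f t‖
        ≤ (2 * (k : ℝ))⁻¹ * (C * |r| + C * |r|) := by
          gcongr
          exact (norm_sub_le _ _).trans (add_le_add h1 h2)
      _ = _ := by rw [mul_inv]; ring
  apply squeeze_zero_norm key
  simpa using (tendsto_inv_atTop_nhds_zero_nat (𝕜 := ℝ)).const_mul (C * |r|)

lemma exists_gt_of_lt_avg {f : ℝ → ℝ} (hf : Continuous f) {c : ℝ} {k : ℕ} (hk : 0 < k)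
    (h : c < avg f k) : ∃ t, c < f t := by
  by_contra hcon
  push Not at hcon
  have hk' : (0 : ℝ) < k := by exact_mod_cast hk
  have h1 : ∫ t in (-(k : ℝ))..(k : ℝ), f t ≤ ∫ _ in (-(k : ℝ))..(k : ℝ), c :=
    intervalIntegral.integral_mono_on (by linarith) (hf.intervalIntegrable _ _)
      (continuous_const.intervalIntegrable _ _) (fun t _ => hcon t)
  have h2 : avg f k ≤ avg (fun _ => c) k := by
    rw [avg, avg]
    exact smul_le_smul_of_nonneg_left h1 (by positivity)
  rw [avg_const c hk] at h2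
  linarith

end avg

lemma exists_ultra_lim {X : Type*} [NormedAddCommGroup X] [ProperSpace X] (ω : Ultrafilter ℕ)
    (u : ℕ → X) (C : ℝ) (hu : ∀ k, ‖u k‖ ≤ C) : ∃ z, Tendsto u ω (𝓝 z) := by
  obtain ⟨z, -, hz⟩ := (isCompact_closedBall (0 : X) C).ultrafilter_le_nhds (ω.map u) (by
    rw [le_principal_iff, Ultrafilter.coe_map, mem_map]
    exact univ_mem' fun k => by simpa using hu k)
  exact ⟨z, hz⟩

lemma tendsto_ultraMean (ω : Ultrafilter ℕ) (f : ℝ → ℝ) (C : ℝ) (hC : ∀ t, ‖f t‖ ≤ C) :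
    Tendsto (avg f) ω (𝓝 (ultraMean ω f)) := by
  have h : windowMean f = avg f := funext (windowMean_eq f)
  rw [ultraMean, h]
  exact tendsto_nhds_limUnder (exists_ultra_lim ω _ C (norm_avg_le hC))

variable {H : Type*} [NormedAddCommGroup H] [InnerProductSpace ℂ H] [CompleteSpace H]

/-- weak operator limits of bounded sequences along an ultrafilter -/
lemma exists_weak_lim (ω : Ultrafilter ℕ) (A : ℕ → H →L[ℂ] H) (C : ℝ) (hA : ∀ k, ‖A k‖ ≤ C) :
    ∃ b : H →L[ℂ] H, ∀ η ζ : H, Tendsto (fun k => ⟪η, A k ζ⟫_ℂ) ω (𝓝 ⟪η, b ζ⟫_ℂ) := by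
  have hb : ∀ (η ζ : H) k, ‖⟪η, A k ζ⟫_ℂ‖ ≤ C * ‖η‖ * ‖ζ‖ := by
    intro η ζ k
    calc ‖⟪η, A k ζ⟫_ℂ‖ ≤ ‖η‖ * ‖A k ζ‖ := norm_inner_le_norm _ _
      _ ≤ ‖η‖ * (C * ‖ζ‖) := by
          gcongr
          exact ((A k).le_opNorm ζ).trans (mul_le_mul_of_nonneg_right (hA k) (norm_nonneg _))
      _ = _ := by ring
  choose L hL using fun η ζ : H => exists_ultra_lim ω (fun k => ⟪η, A k ζ⟫_ℂ) _ (hb η ζ)
  let B₀ : H →ₛₗ[starRingEnd ℂ] H →ₗ[ℂ] ℂ := LinearMap.mk₂'ₛₗ (starRingEnd ℂ) (RingHom.id ℂ) L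
    (fun a b c => tendsto_nhds_unique (hL (a + b) c) (by
      simpa only [inner_add_left] using (hL a c).add (hL b c)))
    (fun c a b => tendsto_nhds_unique (hL (c • a) b) (by
      simpa only [inner_smul_left, smul_eq_mul] using (hL a b).const_mul (starRingEnd ℂ c)))
    (fun a b c => tendsto_nhds_unique (hL a (b + c)) (by
      simpa only [map_add, inner_add_right] using (hL a b).add (hL a c)))
    (fun c a b => tendsto_nhds_unique (hL a (c • b)) (by
      simpa only [map_smul, inner_smul_right, smul_eq_mul, RingHom.id_apply]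
        using (hL a b).const_mul c))
  have hB₀ : ∀ η ζ, ‖B₀ η ζ‖ ≤ C * ‖η‖ * ‖ζ‖ := fun η ζ =>
    le_of_tendsto' (hL η ζ).norm (hb η ζ)
  let B : H →L⋆[ℂ] H →L[ℂ] ℂ := B₀.mkContinuous₂ C hB₀
  refine ⟨ContinuousLinearMap.adjoint (InnerProductSpace.continuousLinearMapOfBilin B),
    fun η ζ => ?_⟩
  rw [ContinuousLinearMap.adjoint_inner_right, InnerProductSpace.continuousLinearMapOfBilin_apply]
  exact hL η ζ

end Crest.Agent.R84
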