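import Mathlib
import Crest.Prelude.Def_ModularData

set_option autoImplicit false

namespace Crest.Agent.R84

open Crest.OpAlg Crest.OpAlg.LineCalculus MeasureTheory Filter
open scoped Topology InnerProductSpace BoundedContinuousFunction

variable {H : Type*} [NormedAddCommGroup H] [InnerProductSpace ℂ H] [CompleteSpace H]

lemma norm_apply_le (D : LineCalculus H) (f : ℝ →ᵇ ℂ) : ‖D.apply f‖ ≤ ‖f‖ :=
  NonUnitalStarAlgHom.norm_apply_le D.apply f

lemma norm_apply_apply_le (D : LineCalculus H) (f : ℝ →ᵇ ℂ) (x : H) :
    ‖D.apply f x‖ ≤ ‖f‖ * ‖x‖ :=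
  ((D.apply f).le_opNorm x).trans (mul_le_mul_of_nonneg_right (norm_apply_le D f) (norm_nonneg _))

lemma apply_mul_apply (D : LineCalculus H) (f g : ℝ →ᵇ ℂ) (x : H) :
    D.apply f (D.apply g x) = D.apply (f * g) x := by
  rw [map_mul]; rfl

lemma character_apply (t u : ℝ) :
    character t u = Complex.exp (Complex.I * ((t * u : ℝ) : ℂ)) := rfl

lemma character_add (s t : ℝ) : character (s + t) = character s * character t := by
  ext u
  simp only [BoundedContinuousFunction.mul_apply, character_apply, ← Complex.exp_add]
  congr 1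
  push_cast
  ring

lemma character_zero : character 0 = 1 := by
  ext u
  simp [character_apply]

lemma star_character (t : ℝ) : star (character t) = character (-t) := by
  ext u
  simp only [BoundedContinuousFunction.star_apply, character_apply, RCLike.star_def,
    ← Complex.exp_conj]
  congr 1
  simp

lemma norm_character_apply (t u : ℝ) : ‖character t u‖ = 1 := by
  rw [character_apply, Complex.norm_exp]; simp

lemma wave_add (D : LineCalculus H) (s t : ℝ) : D.wave (s + t) = D.wave s * D.wave t := by
  simp only [wave, character_add, map_mul]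

lemma wave_zero (D : LineCalculus H) : D.wave 0 = 1 := by
  simp only [wave, character_zero, map_one]

lemma star_wave (D : LineCalculus H) (t : ℝ) : star (D.wave t) = D.wave (-t) := by
  simp only [wave, ← star_character, map_star]

lemma wave_wave (D : LineCalculus H) (s t : ℝ) (x : H) :
    D.wave s (D.wave t x) = D.wave (s + t) x := by
  rw [wave_add]; rfl

lemma wave_neg_wave (D : LineCalculus H) (t : ℝ) (x : H) : D.wave (-t) (D.wave t x) = x := by
  rw [wave_wave, neg_add_cancel, wave_zero]; rfl

lemma wave_wave_neg (D : LineCalculus H) (t : ℝ) (x : H) : D.wave t (D.wave (-t) x) = x := by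
  rw [wave_wave, add_neg_cancel, wave_zero]; rfl

lemma inner_wave_left (D : LineCalculus H) (t : ℝ) (x y : H) :
    ⟪D.wave t x, y⟫_ℂ = ⟪x, D.wave (-t) y⟫_ℂ := by
  rw [← star_wave, ContinuousLinearMap.star_eq_adjoint, ContinuousLinearMap.adjoint_inner_right]

lemma inner_wave_right (D : LineCalculus H) (t : ℝ) (x y : H) :
    ⟪x, D.wave t y⟫_ℂ = ⟪D.wave (-t) x, y⟫_ℂ := by
  rw [inner_wave_left, neg_neg]

lemma norm_wave (D : LineCalculus H) (t : ℝ) (x : H) : ‖D.wave t x‖ = ‖x‖ := by
  have h : ⟪D.wave t x, D.wave t x⟫_ℂ = ⟪x, x⟫_ℂ := by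
    rw [inner_wave_left, wave_neg_wave]
  rw [@norm_eq_sqrt_re_inner ℂ, h, ← @norm_eq_sqrt_re_inner ℂ]

lemma norm_character_sub (s t u : ℝ) : ‖character s u - character t u‖ ≤ |s - t| * |u| := by
  have h1 : character s u - character t u = character t u * (character (s - t) u - 1) := by
    have := congrArg (fun f : ℝ →ᵇ ℂ => f u) (character_add t (s - t))
    simp only [add_sub_cancel, BoundedContinuousFunction.mul_apply] at this
    rw [this]; ring
  rw [h1, norm_mul, norm_character_apply, one_mul, character_apply, ← abs_mul]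
  have := Real.norm_exp_I_mul_ofReal_sub_one_le (x := (s - t) * u)
  simpa using this

lemma continuous_character_mul (g : ℝ →ᵇ ℂ) (hg : HasCompactSupport (g : ℝ → ℂ)) :
    Continuous fun t : ℝ => character t * g := by
  obtain ⟨R, hR⟩ := hg.isCompact.isBounded.subset_closedBall 0
  have key : ∀ s t : ℝ, ‖character s * g - character t * g‖ ≤ (|R| * ‖g‖) * |s - t| := by
    intro s t
    rw [BoundedContinuousFunction.norm_le (by positivity)]
    intro u
    simp only [BoundedContinuousFunction.sub_apply, BoundedContinuousFunction.mul_apply]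
    rw [← sub_mul, norm_mul]
    by_cases hu : u ∈ tsupport (g : ℝ → ℂ)
    · have h1 : |u| ≤ |R| := by
        have := hR hu
        simp only [Metric.mem_closedBall, dist_zero_right, Real.norm_eq_abs] at this
        exact this.trans (le_abs_self R)
      calc ‖character s u - character t u‖ * ‖g u‖ ≤ (|s - t| * |R|) * ‖g‖ := by
            apply mul_le_mul _ (g.norm_coe_le_norm u) (norm_nonneg _) (by positivity)
            exact (norm_character_sub s t u).trans (by gcongr)
        _ = _ := by ring
    · rw [image_eq_zero_of_notMem_tsupport hu]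
      simp only [norm_zero, mul_zero]
      positivity
  have : LipschitzWith (Real.toNNReal (|R| * ‖g‖)) fun t : ℝ => character t * g := by
    apply LipschitzWith.of_dist_le_mul
    intro s t
    rw [dist_eq_norm, Real.dist_eq, Real.coe_toNNReal _ (by positivity)]
    exact key s t
  exact this.continuous

/-- `f ↦ f(D) x` as a continuous linear map. -/
noncomputable def applyAt (D : LineCalculus H) (x : H) : (ℝ →ᵇ ℂ) →L[ℂ] H :=
  LinearMap.mkContinuous
    { toFun := fun f => D.apply f x
      map_add' := fun f g => by rw [map_add]; rfl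
      map_smul' := fun c f => by rw [map_smul]; rfl } ‖x‖
    (fun f => by rw [mul_comm]; exact norm_apply_apply_le D f x)

lemma applyAt_apply (D : LineCalculus H) (x : H) (f : ℝ →ᵇ ℂ) : applyAt D x f = D.apply f x := rfl

/-- vectors of the form `g(D) z` with `g` of compact support -/
def core (D : LineCalculus H) : Set H :=
  {x | ∃ g : ℝ →ᵇ ℂ, HasCompactSupport (g : ℝ → ℂ) ∧ ∃ z, x = D.apply g z}

lemma dense_core (D : LineCalculus H) : Dense (core D) := by
  intro x
  rw [Metric.mem_closure_iff]
  intro ε hε
  obtain ⟨f, hf, hx⟩ := D.window x ε hε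
  exact ⟨D.apply f x, ⟨f, hf, x, rfl⟩, by rw [dist_comm, dist_eq_norm]; exact hx⟩

lemma continuous_wave (D : LineCalculus H) (x : H) : Continuous fun t : ℝ => D.wave t x := by
  apply continuous_of_uniform_approx_of_continuous
  intro u hu
  obtain ⟨ε, hε, hεu⟩ := Metric.mem_uniformity_dist.1 hu
  obtain ⟨f, hf, hx⟩ := D.window x ε hε
  refine ⟨fun t => applyAt D x (character t * f),
    (applyAt D x).continuous.comp (continuous_character_mul f hf), fun t => hεu ?_⟩
  simp only
  rw [applyAt_apply, ← apply_mul_apply, dist_comm, dist_eq_norm]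
  change ‖D.wave t (D.apply f x) - D.wave t x‖ < ε
  rw [← map_sub, norm_wave]
  exact hx

lemma continuous_wave_comp (D : LineCalculus H) {X : Type*} [TopologicalSpace X] {τ : X → ℝ}
    {v : X → H} (hτ : Continuous τ) (hv : Continuous v) :
    Continuous fun p : X => D.wave (τ p) (v p) := by
  rw [continuous_iff_continuousAt]
  intro p
  have h1 : Tendsto (fun q => D.wave (τ q) (v p)) (𝓝 p) (𝓝 (D.wave (τ p) (v p))) :=
    ((continuous_wave D (v p)).comp hτ).continuousAt
  have h2 : Tendsto (fun q => D.wave (τ q) (v q - v p)) (𝓝 p) (𝓝 0) := by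
    rw [tendsto_zero_iff_norm_tendsto_zero]
    simp only [norm_wave]
    rw [← tendsto_iff_norm_sub_tendsto_zero]
    exact hv.continuousAt
  have h3 := h1.add h2
  simp only [map_sub, add_sub_cancel, add_zero] at h3
  exact h3

lemma integrable_smul_wave (D : LineCalculus H) {F : ℝ → ℂ} (hF : Integrable F) (κ : ℝ) (x : H) :
    Integrable fun τ : ℝ => F τ • D.wave (κ * τ) x := by
  refine Integrable.mono' (hF.norm.mul_const ‖x‖) ?_ ?_
  · exact hF.aestronglyMeasurable.smul
      (continuous_wave_comp D (by fun_prop) continuous_const).aestronglyMeasurable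
  · exact Eventually.of_forall fun τ => by rw [norm_smul, norm_wave]

lemma integral_smul_wave (D : LineCalculus H) {F : ℝ → ℂ} (hF : Integrable F) (κ : ℝ)
    (ψ : ℝ →ᵇ ℂ) (hψ : ∀ u, ψ u = ∫ τ : ℝ, F τ * character (κ * τ) u) (x : H) :
    ∫ τ : ℝ, F τ • D.wave (κ * τ) x = D.apply ψ x := by
  have hcont : Continuous fun x : H => ∫ τ : ℝ, F τ • D.wave (κ * τ) x := by
    have : LipschitzWith (Real.toNNReal (∫ τ, ‖F τ‖))
        fun x : H => ∫ τ : ℝ, F τ • D.wave (κ * τ) x := by
      apply LipschitzWith.of_dist_le_mul
      intro x y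
      rw [dist_eq_norm, dist_eq_norm, Real.coe_toNNReal _ (integral_nonneg fun _ => norm_nonneg _),
        ← integral_sub (integrable_smul_wave D hF κ x) (integrable_smul_wave D hF κ y),
        ← integral_mul_const]
      apply norm_integral_le_of_norm_le (hF.norm.mul_const _)
      exact Eventually.of_forall fun τ => by rw [← smul_sub, ← map_sub, norm_smul, norm_wave]
    exact this.continuous
  refine congrFun (Continuous.ext_on (dense_core D) hcont (D.apply ψ).continuous ?_) x
  rintro _ ⟨g, hg, z, rfl⟩
  have hc : Continuous fun τ : ℝ => character (κ * τ) * g :=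
    (continuous_character_mul g hg).comp (by fun_prop)
  have hint : Integrable fun τ : ℝ => F τ • (character (κ * τ) * g) := by
    refine Integrable.mono' (hF.norm.mul_const ‖g‖) ?_ ?_
    · exact hF.aestronglyMeasurable.smul hc.aestronglyMeasurable
    · refine Eventually.of_forall fun τ => ?_
      rw [norm_smul]
      gcongr
      rw [BoundedContinuousFunction.norm_le (norm_nonneg _)]
      intro u
      rw [BoundedContinuousFunction.mul_apply, norm_mul, norm_character_apply, one_mul]
      exact g.norm_coe_le_norm u
  have h1 : ∫ τ : ℝ, F τ • (character (κ * τ) * g) = ψ * g := by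
    ext u
    have := (BoundedContinuousFunction.evalCLM ℂ u).integral_comp_comm hint
    simp only [BoundedContinuousFunction.evalCLM_apply] at this
    rw [← this, BoundedContinuousFunction.mul_apply, hψ, ← integral_mul_const]
    congr 1
    ext τ
    simp [mul_assoc]
  have h2 := (applyAt D z).integral_comp_comm hint
  rw [h1, applyAt_apply, ← apply_mul_apply] at h2
  simp only
  rw [← h2]
  congr 1
  ext τ
  rw [map_smul, applyAt_apply, ← apply_mul_apply]
  rfl

end Crest.Agent.R84
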