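import Crest.Agent.R84.Smooth

set_option autoImplicit false

namespace Crest.Agent.R84

open Crest.OpAlg Crest.OpAlg.LineCalculus MeasureTheory Filter
open scoped Topology InnerProductSpace BoundedContinuousFunction

variable {H : Type*} [NormedAddCommGroup H] [InnerProductSpace ℂ H] [CompleteSpace H]

lemma inner_star_mul (a : H →L[ℂ] H) (ζ : H) :
    ⟪ζ, (star a * a) ζ⟫_ℂ = ((‖a ζ‖ ^ 2 : ℝ) : ℂ) := by
  rw [mul_apply_eq_comp, ContinuousLinearMap.star_eq_adjoint,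
    ContinuousLinearMap.adjoint_inner_right, inner_self_eq_norm_sq_to_K]
  simp

lemma inner_mul_star (a : H →L[ℂ] H) (ζ : H) :
    ⟪ζ, (a * star a) ζ⟫_ℂ = ((‖star a ζ‖ ^ 2 : ℝ) : ℂ) := by
  have := inner_star_mul (star a) ζ
  rwa [star_star] at this

omit [CompleteSpace H] in
lemma para (a b : H) : ‖a + b‖ ^ 2 + ‖a - b‖ ^ 2 = 2 * ‖a‖ ^ 2 + 2 * ‖b‖ ^ 2 := by
  have := parallelogram_law_with_norm ℂ a b
  nlinarith [this]

variable (S : ModularDatum H)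

lemma tendsto_avg_re_flow (herg : S.Ergodic) (ω : Ultrafilter ℕ) (hω : (ω : Filter ℕ) ≤ atTop)
    {a : H →L[ℂ] H} (ha : a ∈ S.M) (η ζ : H) :
    Tendsto (avg fun t => (⟪η, S.flow t a ζ⟫_ℂ).re) ω
      (𝓝 (⟪S.vac, a S.vac⟫_ℂ * ⟪η, ζ⟫_ℂ).re) := by
  have h1 := (Complex.reCLM.continuous.tendsto _).comp (tendsto_avg_inner_flow S herg ω hω ha η ζ)
  refine h1.congr fun k => ?_
  exact avg_clm Complex.reCLM (continuous_const.inner (continuous_flow_apply S a ζ)) k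

/-- the potential of the greedy construction -/
noncomputable def pot (T : H →L[ℂ] H) (μ lam α β ρ : ℝ) (y : H →L[ℂ] H) (w : H) : ℝ :=
  ‖T w‖ ^ 2 - μ * ‖y S.vac - w‖ ^ 2 -
    lam * (‖(star y * y) S.vac‖ ^ 2 + ρ * (α * ‖y S.vac‖ ^ 2 + β * ‖star y S.vac‖ ^ 2))

lemma exists_good_time (herg : S.Ergodic) (ω : Ultrafilter ℕ) (hω : (ω : Filter ℕ) ≤ atTop)
    (T : H →L[ℂ] H) (h : H) {c θ : ℝ} (hθ : 0 < θ)
    (hc : c ≤ ultraMean ω (fun t : ℝ => ‖T (S.D.wave t h)‖ ^ 2)) (lam : ℝ)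
    {x y : H →L[ℂ] H} (hx : x ∈ S.M) (hy : y ∈ S.M) :
    ∃ t : ℝ, c - θ - lam * ((2 * ‖x S.vac‖ ^ 2 + 2 * ‖star x S.vac‖ ^ 2) * ‖y S.vac‖ ^ 2 +
        (2 * ‖x S.vac‖ ^ 2) * ‖star y S.vac‖ ^ 2) <
      ‖T (S.D.wave t h)‖ ^ 2 - lam * (2 * (⟪(star y * y) S.vac, S.flow t (star x * x) S.vac⟫_ℂ).re
        + 2 * ‖star (S.flow t x) (y S.vac)‖ ^ 2 + 2 * ‖star y (S.flow t x S.vac)‖ ^ 2) := by
  have hf0 : Continuous fun t : ℝ => ‖T (S.D.wave t h)‖ ^ 2 :=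
    (T.continuous.comp (continuous_wave S.D h)).norm.pow 2
  have h0 := tendsto_ultraMean ω (fun t : ℝ => ‖T (S.D.wave t h)‖ ^ 2) ((‖T‖ * ‖h‖) ^ 2)
    (fun t => by
      rw [Real.norm_eq_abs, abs_of_nonneg (by positivity)]
      gcongr
      exact (T.le_opNorm _).trans (by rw [norm_wave]))
  have h1 := tendsto_avg_re_flow S herg ω hω (mul_mem (star_mem hx) hx) ((star y * y) S.vac) S.vac
  have h2 := tendsto_avg_re_flow S herg ω hω (mul_mem hx (star_mem hx)) (y S.vac) (y S.vac)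
  have h3 := tendsto_avg_re_flow S herg ω hω (mul_mem hy (star_mem hy)) (x S.vac) (x S.vac)
  rw [inner_star_mul, ← inner_conj_symm, inner_star_mul, Complex.conj_ofReal,
    ← Complex.ofReal_mul, Complex.ofReal_re] at h1
  have hsq : ∀ ζ : H, ⟪ζ, ζ⟫_ℂ = ((‖ζ‖ ^ 2 : ℝ) : ℂ) := fun ζ => by
    rw [inner_self_eq_norm_sq_to_K]; simp
  rw [inner_mul_star, hsq, ← Complex.ofReal_mul, Complex.ofReal_re] at h2 h3
  have e2 : ∀ t, (⟪y S.vac, S.flow t (x * star x) (y S.vac)⟫_ℂ).re =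
      ‖star (S.flow t x) (y S.vac)‖ ^ 2 := fun t => by
    rw [flow_mul, ← star_flow, inner_mul_star, Complex.ofReal_re]
  have e3 : ∀ t, (⟪x S.vac, S.flow (-t) (y * star y) (x S.vac)⟫_ℂ).re =
      ‖star y (S.flow t x S.vac)‖ ^ 2 := fun t => by
    rw [flow_apply, inner_wave_right, neg_neg, ← flow_vac, inner_mul_star, Complex.ofReal_re]
  have h3' : Tendsto (avg fun t => (⟪x S.vac, S.flow (-t) (y * star y) (x S.vac)⟫_ℂ).re) ω
      (𝓝 (‖star y S.vac‖ ^ 2 * ‖x S.vac‖ ^ 2)) :=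
    h3.congr fun k => (avg_neg (fun t => (⟪x S.vac, S.flow t (y * star y) (x S.vac)⟫_ℂ).re) k).symm
  simp only [e2] at h2
  simp only [e3] at h3'
  have c1 : Continuous fun t => (⟪(star y * y) S.vac, S.flow t (star x * x) S.vac⟫_ℂ).re :=
    Complex.continuous_re.comp (continuous_const.inner (continuous_flow_apply S _ _))
  have c2 : Continuous fun t => ‖star (S.flow t x) (y S.vac)‖ ^ 2 := by
    simp only [star_flow]
    exact (continuous_flow_apply S _ _).norm.pow 2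
  have c3 : Continuous fun t => ‖star y (S.flow t x S.vac)‖ ^ 2 :=
    ((star y).continuous.comp (continuous_flow_apply S _ _)).norm.pow 2
  have h4 := h0.sub ((((h1.const_mul 2).add (h2.const_mul 2)).add (h3'.const_mul 2)).const_mul lam)
  have h5 := h4.eventually (lt_mem_nhds (a := c - θ - lam *
    ((2 * ‖x S.vac‖ ^ 2 + 2 * ‖star x S.vac‖ ^ 2) * ‖y S.vac‖ ^ 2 +
        (2 * ‖x S.vac‖ ^ 2) * ‖star y S.vac‖ ^ 2)) (by linarith))
  obtain ⟨k, hk, hk0⟩ := (h5.and (hω (eventually_gt_atTop 0))).exists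
  refine exists_gt_of_lt_avg (k := k) (by fun_prop) hk0 ?_
  rw [avg_sub hf0 (by fun_prop), avg_const_mul, avg_add (by fun_prop) (by fun_prop),
    avg_add (by fun_prop) (by fun_prop), avg_const_mul, avg_const_mul, avg_const_mul]
  exact hk

lemma greedy_step (herg : S.Ergodic) (ω : Ultrafilter ℕ) (hω : (ω : Filter ℕ) ≤ atTop)
    (T : H →L[ℂ] H) {K : Set ℝ} {h : H} (hh : S.D.SupportedIn K h) {c θ : ℝ} (hθ : 0 < θ)
    (hc : c ≤ ultraMean ω (fun t : ℝ => ‖T (S.D.wave t h)‖ ^ 2)) (μ ρ : ℝ) {lam : ℝ}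
    (hlam : 0 ≤ lam) {x y : H →L[ℂ] H} (hx : x ∈ S.M) (hy : y ∈ S.M) {w : H}
    (hw : S.D.SupportedIn K w) {α β : ℝ} (hα : α = 2 * ‖x S.vac‖ ^ 2 + 2 * ‖star x S.vac‖ ^ 2)
    (hβ : β = 2 * ‖x S.vac‖ ^ 2) :
    ∃ y' ∈ S.M, ∃ w', S.D.SupportedIn K w' ∧
      pot S T μ lam α β (ρ + 1) y w + (c - θ - μ * ‖x S.vac - h‖ ^ 2 -
        lam * ‖(star x * x) S.vac‖ ^ 2 -
        lam * ρ * (α * ‖x S.vac‖ ^ 2 + β * ‖star x S.vac‖ ^ 2)) ≤ pot S T μ lam α β ρ y' w' := by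
  obtain ⟨t, ht⟩ := exists_good_time S herg ω hω T h hθ hc lam hx hy
  rw [← hα, ← hβ] at ht
  set u := S.flow t x with hu
  set g := S.D.wave t h with hg
  have huM : u ∈ S.M := flow_mem S hx t
  have hgK : S.D.SupportedIn K g := supp_wave hh t
  have n1 : ‖u S.vac - g‖ = ‖x S.vac - h‖ := by rw [hu, hg, flow_vac, ← map_sub, norm_wave]
  have n2 : ‖u S.vac‖ = ‖x S.vac‖ := by rw [hu, flow_vac, norm_wave]
  have n3 : ‖star u S.vac‖ = ‖star x S.vac‖ := by rw [hu, star_flow, flow_vac, norm_wave]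
  have n4 : star u * u = S.flow t (star x * x) := by rw [hu, flow_mul, star_flow]
  have n5 : ‖(star u * u) S.vac‖ = ‖(star x * x) S.vac‖ := by rw [n4, flow_vac, norm_wave]
  rw [← n4] at ht
  have p1 := para (T w) (T g)
  have p2 := para (y S.vac - w) (u S.vac - g)
  have p3 := para (y S.vac) (u S.vac)
  have p4 := para (star y S.vac) (star u S.vac)
  have p5 := para ((star y * y) S.vac + (star u * u) S.vac)
    (star y (u S.vac) + star u (y S.vac))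
  have p6 := para (star y (u S.vac)) (star u (y S.vac))
  have p7 := @norm_add_sq ℂ _ _ _ _ ((star y * y) S.vac) ((star u * u) S.vac)
  rw [n1] at p2
  rw [n2] at p3
  rw [n3] at p4
  rw [n5] at p7
  have q1 : pot S T μ lam α β ρ (y + u) (w + g) = ‖T w + T g‖ ^ 2
      - μ * ‖(y S.vac - w) + (u S.vac - g)‖ ^ 2 - lam *
      (‖((star y * y) S.vac + (star u * u) S.vac) + (star y (u S.vac) + star u (y S.vac))‖ ^ 2
        + ρ * (α * ‖y S.vac + u S.vac‖ ^ 2 + β * ‖star y S.vac + star u S.vac‖ ^ 2)) := by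
    have a1 : (y + u) S.vac - (w + g) = (y S.vac - w) + (u S.vac - g) := by
      rw [add_apply]; abel
    have a2 : (star (y + u) * (y + u)) S.vac =
        ((star y * y) S.vac + (star u * u) S.vac) + (star y (u S.vac) + star u (y S.vac)) := by
      simp only [star_add, mul_apply_eq_comp, add_apply, map_add]; abel
    rw [pot, a1, a2, map_add, star_add, add_apply, add_apply]
  have q2 : pot S T μ lam α β ρ (y - u) (w - g) = ‖T w - T g‖ ^ 2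
      - μ * ‖(y S.vac - w) - (u S.vac - g)‖ ^ 2 - lam *
      (‖((star y * y) S.vac + (star u * u) S.vac) - (star y (u S.vac) + star u (y S.vac))‖ ^ 2
        + ρ * (α * ‖y S.vac - u S.vac‖ ^ 2 + β * ‖star y S.vac - star u S.vac‖ ^ 2)) := by
    have a1 : (y - u) S.vac - (w - g) = (y S.vac - w) - (u S.vac - g) := by
      rw [sub_apply]; abel
    have a2 : (star (y - u) * (y - u)) S.vac =
        ((star y * y) S.vac + (star u * u) S.vac) - (star y (u S.vac) + star u (y S.vac)) := by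
      simp only [star_sub, mul_apply_eq_comp, sub_apply, map_sub]; abel
    rw [pot, a1, a2, map_sub, star_sub, sub_apply, sub_apply]
  have key : 2 * (pot S T μ lam α β (ρ + 1) y w + (c - θ - μ * ‖x S.vac - h‖ ^ 2 -
        lam * ‖(star x * x) S.vac‖ ^ 2 -
        lam * ρ * (α * ‖x S.vac‖ ^ 2 + β * ‖star x S.vac‖ ^ 2))) ≤
      pot S T μ lam α β ρ (y + u) (w + g) + pot S T μ lam α β ρ (y - u) (w - g) := by
    rw [q1, q2, pot]
    have r1 : lam * ‖star y (u S.vac) + star u (y S.vac)‖ ^ 2 ≤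
        lam * (2 * ‖star y (u S.vac)‖ ^ 2 + 2 * ‖star u (y S.vac)‖ ^ 2) := by
      apply mul_le_mul_of_nonneg_left _ hlam
      nlinarith [sq_nonneg ‖star y (u S.vac) - star u (y S.vac)‖]
    have r2 : RCLike.re ⟪(star y * y) S.vac, (star u * u) S.vac⟫_ℂ =
      (⟪(star y * y) S.vac, (star u * u) S.vac⟫_ℂ).re := rfl
    rw [r2] at p7
    have p2' := congrArg (fun z => μ * z) p2
    have p3' := congrArg (fun z => lam * ρ * α * z) p3
    have p4' := congrArg (fun z => lam * ρ * β * z) p4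
    have p5' := congrArg (fun z => lam * z) p5
    have p7' := congrArg (fun z => lam * z) p7
    linarith
  rcases le_total (pot S T μ lam α β ρ (y + u) (w + g)) (pot S T μ lam α β ρ (y - u) (w - g))
    with hle | hle
  · exact ⟨y - u, sub_mem hy huM, w - g, supp_sub hw hgK, by linarith⟩
  · exact ⟨y + u, add_mem hy huM, w + g, supp_add hw hgK, by linarith⟩

lemma greedy (herg : S.Ergodic) (ω : Ultrafilter ℕ) (hω : (ω : Filter ℕ) ≤ atTop)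
    (T : H →L[ℂ] H) {K : Set ℝ} {h : H} (hh : S.D.SupportedIn K h) {c θ : ℝ} (hθ : 0 < θ)
    (hc : c ≤ ultraMean ω (fun t : ℝ => ‖T (S.D.wave t h)‖ ^ 2)) (μ : ℝ) {lam : ℝ}
    (hlam : 0 ≤ lam) {x : H →L[ℂ] H} (hx : x ∈ S.M)
    {α β : ℝ} (hα : α = 2 * ‖x S.vac‖ ^ 2 + 2 * ‖star x S.vac‖ ^ 2)
    (hβ : β = 2 * ‖x S.vac‖ ^ 2) (N : ℕ) (j : ℕ) (hj : j ≤ N) :
    ∃ y ∈ S.M, ∃ w, S.D.SupportedIn K w ∧
      j * (c - θ - μ * ‖x S.vac - h‖ ^ 2 - lam * ‖(star x * x) S.vac‖ ^ 2 -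
        lam * N * (α * ‖x S.vac‖ ^ 2 + β * ‖star x S.vac‖ ^ 2)) ≤
        pot S T μ lam α β ((N : ℝ) - j) y w := by
  induction j with
  | zero => exact ⟨0, zero_mem _, 0, supp_zero _ _, by simp [pot]⟩
  | succ j ih =>
    obtain ⟨y, hy, w, hw, hV⟩ := ih (by omega)
    obtain ⟨y', hy', w', hw', hV'⟩ := greedy_step S herg ω hω T hh hθ hc μ
      ((N : ℝ) - (j + 1 : ℕ)) hlam hx hy hw hα hβ
    refine ⟨y', hy', w', hw', le_trans ?_ hV'⟩
    have e1 : ((N : ℝ) - (j + 1 : ℕ)) + 1 = (N : ℝ) - j := by push_cast; ring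
    rw [e1]
    have hκ : 0 ≤ α * ‖x S.vac‖ ^ 2 + β * ‖star x S.vac‖ ^ 2 := by rw [hα, hβ]; positivity
    have h2 : lam * ((N : ℝ) - (j + 1 : ℕ)) * (α * ‖x S.vac‖ ^ 2 + β * ‖star x S.vac‖ ^ 2) ≤
        lam * N * (α * ‖x S.vac‖ ^ 2 + β * ‖star x S.vac‖ ^ 2) := by
      gcongr
      have : (0 : ℝ) ≤ (j + 1 : ℕ) := Nat.cast_nonneg _
      linarith
    rw [Nat.cast_succ] at h2 ⊢
    linarith

/-- the normalized outcome of the greedy construction -/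
lemma exists_khintchine (herg : S.Ergodic) (ω : Ultrafilter ℕ) (hω : (ω : Filter ℕ) ≤ atTop)
    (T : H →L[ℂ] H) {s δ : ℝ} (hδ : δ ≤ 1) {h : H}
    (hh : S.D.SupportedIn (Set.Icc (s - δ) (s + δ)) h) (hh1 : ‖h‖ = 1) {c : ℝ} (hc0 : 0 < c)
    (hc : c ≤ ultraMean ω (fun t : ℝ => ‖T (S.D.wave t h)‖ ^ 2)) {μ : ℝ} (hμ : 0 ≤ μ) :
    ∃ y ∈ S.M, ∃ w, S.D.SupportedIn (Set.Icc (s - δ) (s + δ)) w ∧
      c / 2 + μ * ‖y S.vac - w‖ ^ 2 +
        c / (8 * (32 + 16 * (Real.exp ((s + 1) / 2) + 1) ^ 2)) * ‖(star y * y) S.vac‖ ^ 2 ≤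
        ‖T w‖ ^ 2 := by
  set E := Real.exp ((s + 1) / 2) + 1 with hE
  set κ₀ := 32 + 16 * E ^ 2 with hκ₀
  have hκ₀pos : 0 < κ₀ := by positivity
  set l := c / (8 * κ₀) with hl
  have hlpos : 0 < l := by positivity
  set ε := min 1 (c / (8 * (μ + 1))) with hε
  have hεpos : 0 < ε := by positivity
  have hε1 : ε ≤ 1 := min_le_left _ _
  have hε2 : μ * ε ^ 2 ≤ c / 8 := by
    have h1 : ε ≤ c / (8 * (μ + 1)) := min_le_right _ _
    rw [le_div_iff₀ (by positivity)] at h1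
    nlinarith [mul_nonneg hμ hεpos.le]
  obtain ⟨x, hx, hx1, hx2⟩ := exists_approx S hh hεpos
  have ha : ‖x S.vac‖ ≤ 2 := by
    have := norm_le_insert' (x S.vac) h
    linarith
  have hb : ‖star x S.vac‖ ≤ E := by
    rw [hh1, mul_one] at hx2
    have : Real.exp ((s + δ) / 2) ≤ Real.exp ((s + 1) / 2) := by gcongr
    linarith
  obtain ⟨N, hN⟩ := exists_nat_gt (max 0 (8 * l * ‖(star x * x) S.vac‖ ^ 2 / c))
  have hNpos : (0 : ℝ) < N := (le_max_left _ _).trans_lt hN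
  have hN2 : l / N * ‖(star x * x) S.vac‖ ^ 2 ≤ c / 8 := by
    have h1 := ((le_max_right _ _).trans_lt hN).le
    rw [div_le_iff₀ hc0] at h1
    rw [div_mul_eq_mul_div, div_le_div_iff₀ hNpos (by norm_num)]
    linarith
  obtain ⟨y, hy, w, hw, hV⟩ := greedy S herg ω hω T hh (θ := c / 8) (by positivity) hc μ
    (lam := l / N) (by positivity) hx rfl rfl N N le_rfl
  have hκ : (2 * ‖x S.vac‖ ^ 2 + 2 * ‖star x S.vac‖ ^ 2) * ‖x S.vac‖ ^ 2 +
      2 * ‖x S.vac‖ ^ 2 * ‖star x S.vac‖ ^ 2 ≤ κ₀ := by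
    calc _ ≤ (2 * 2 ^ 2 + 2 * E ^ 2) * 2 ^ 2 + 2 * 2 ^ 2 * E ^ 2 := by gcongr
      _ = κ₀ := by rw [hκ₀]; ring
  have h3 : l / N * N * ((2 * ‖x S.vac‖ ^ 2 + 2 * ‖star x S.vac‖ ^ 2) * ‖x S.vac‖ ^ 2 +
      2 * ‖x S.vac‖ ^ 2 * ‖star x S.vac‖ ^ 2) ≤ c / 8 := by
    rw [div_mul_cancel₀ _ hNpos.ne']
    calc _ ≤ l * κ₀ := by gcongr
      _ = c / 8 := by rw [hl]; field_simp
  have h4 : μ * ‖x S.vac - h‖ ^ 2 ≤ c / 8 := le_trans (by gcongr) hε2
  have h5 : N * (c / 2) ≤ ‖T w‖ ^ 2 - μ * ‖y S.vac - w‖ ^ 2 -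
      l / N * ‖(star y * y) S.vac‖ ^ 2 := by
    rw [pot, sub_self, zero_mul, add_zero] at hV
    refine le_trans ?_ hV
    gcongr
    linarith
  set r : ℝ := (Real.sqrt N)⁻¹ with hr
  have hr0 : 0 < r := by positivity
  have hr2 : r ^ 2 = (N : ℝ)⁻¹ := by rw [hr, inv_pow, Real.sq_sqrt hNpos.le]
  refine ⟨(r : ℂ) • y, smul_mem' _ _ hy, (r : ℂ) • w, supp_smul hw _, ?_⟩
  have m1 : ‖T ((r : ℂ) • w)‖ ^ 2 = (N : ℝ)⁻¹ * ‖T w‖ ^ 2 := by
    rw [map_smul, norm_smul, Complex.norm_real, Real.norm_eq_abs, mul_pow, sq_abs, hr2]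
  have m2 : ‖((r : ℂ) • y) S.vac - (r : ℂ) • w‖ ^ 2 = (N : ℝ)⁻¹ * ‖y S.vac - w‖ ^ 2 := by
    rw [smul_apply, ← smul_sub, norm_smul, Complex.norm_real, Real.norm_eq_abs, mul_pow, sq_abs,
      hr2]
  have m3 : ‖(star ((r : ℂ) • y) * ((r : ℂ) • y)) S.vac‖ ^ 2 =
      (N : ℝ)⁻¹ * ((N : ℝ)⁻¹ * ‖(star y * y) S.vac‖ ^ 2) := by
    rw [star_smul, smul_mul_smul_comm, smul_apply, norm_smul, norm_mul, norm_star,
      Complex.norm_real, Real.norm_eq_abs, mul_pow, mul_pow, sq_abs, hr2, mul_assoc]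
  rw [m1, m2, m3]
  have h6 := mul_le_mul_of_nonneg_left h5 (inv_pos.2 hNpos).le
  rw [← mul_assoc, inv_mul_cancel₀ hNpos.ne', one_mul, div_eq_mul_inv l] at h6
  linarith

end Crest.Agent.R84
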