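import Crest.Agent.R84.Calc
import Crest.Agent.R84.Avg

set_option autoImplicit false

namespace Crest.Agent.R84

open Crest.OpAlg Crest.OpAlg.LineCalculus MeasureTheory Filter
open scoped Topology InnerProductSpace BoundedContinuousFunction

variable {H : Type*} [NormedAddCommGroup H] [InnerProductSpace ℂ H] [CompleteSpace H]

lemma exists_bcf (f : ℝ → ℂ) (hf : Continuous f) (hc : HasCompactSupport f) :
    ∃ g : ℝ →ᵇ ℂ, (g : ℝ → ℂ) = f := by
  obtain ⟨C, hC⟩ := hf.bounded_above_of_compact_support hc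
  exact ⟨BoundedContinuousFunction.ofNormedAddCommGroup f hf C hC, rfl⟩

lemma inner_J (J : H ≃ₗᵢ⋆[ℂ] H) (x y : H) : ⟪J x, J y⟫_ℂ = ⟪y, x⟫_ℂ := by
  have h1 : ∀ a b : H, RCLike.re ⟪J a, J b⟫_ℂ = RCLike.re ⟪a, b⟫_ℂ := by
    intro a b
    rw [re_inner_eq_norm_add_mul_self_sub_norm_sub_mul_self_div_four,
      re_inner_eq_norm_add_mul_self_sub_norm_sub_mul_self_div_four, ← map_add, ← map_sub,
      J.norm_map, J.norm_map]
  apply Complex.ext
  · have := h1 x y
    rw [← inner_conj_symm y x, Complex.conj_re]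
    simpa using this
  · have := h1 x (Complex.I • y)
    rw [LinearIsometryEquiv.map_smulₛₗ, inner_smul_right, inner_smul_right] at this
    rw [← inner_conj_symm y x, Complex.conj_im]
    simpa using this

lemma mem_of_commute (M : VonNeumannAlgebra H) (b : H →L[ℂ] H)
    (hb : ∀ m ∈ M.commutant, m * b = b * m) : b ∈ M := by
  rw [← M.commutant_commutant, VonNeumannAlgebra.mem_commutant_iff]
  exact hb

lemma smul_mem' (M : VonNeumannAlgebra H) (c : ℂ) {a : H →L[ℂ] H} (ha : a ∈ M) : c • a ∈ M :=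
  M.toStarSubalgebra.smul_mem ha c

variable (S : ModularDatum H)

lemma inner_of_halfExp {x y : H} (h : S.D.HalfExp x y) : ⟪x, S.vac⟫_ℂ = ⟪y, S.J S.vac⟫_ℂ := by
  have hmem : (x, S.J y) ∈ closure (Set.range fun a : S.M =>
      ((a : H →L[ℂ] H) S.vac, star (a : H →L[ℂ] H) S.vac)) := by
    rw [S.tomita]
    simpa [S.J_J] using h
  have hcl : IsClosed {p : H × H | ⟪p.1, S.vac⟫_ℂ = ⟪S.vac, p.2⟫_ℂ} :=
    isClosed_eq (by fun_prop) (by fun_prop)
  have hsub : (Set.range fun a : S.M =>
      ((a : H →L[ℂ] H) S.vac, star (a : H →L[ℂ] H) S.vac)) ⊆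
      {p : H × H | ⟪p.1, S.vac⟫_ℂ = ⟪S.vac, p.2⟫_ℂ} := by
    rintro _ ⟨a, rfl⟩
    simp only [Set.mem_ofPred_eq, ContinuousLinearMap.star_eq_adjoint,
      ContinuousLinearMap.adjoint_inner_right]
  have := hcl.closure_subset_iff.2 hsub hmem
  simp only [Set.mem_ofPred_eq] at this
  rw [this, ← inner_J S.J (S.J S.vac) y, S.J_J]

lemma halfExp_vac : S.D.HalfExp S.vac (S.J S.vac) := by
  have hmem : (S.vac, S.vac) ∈ closure (Set.range fun a : S.M =>
      ((a : H →L[ℂ] H) S.vac, star (a : H →L[ℂ] H) S.vac)) :=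
    subset_closure ⟨⟨1, one_mem _⟩, by simp⟩
  rw [S.tomita] at hmem
  exact hmem

lemma apply_vac_eq (f g : ℝ →ᵇ ℂ) (hfg : ∀ u, g u = f u * ((Real.exp (u / 2) : ℝ) : ℂ)) :
    S.D.apply f S.vac = S.D.apply g (S.J S.vac) := by
  apply ext_inner_left ℂ
  intro z
  have h : S.D.HalfExp (S.D.apply (star f) z) (S.D.apply (star g) z) := by
    intro f' g' h'
    rw [apply_mul_apply, apply_mul_apply]
    congr 2
    ext u
    simp only [BoundedContinuousFunction.mul_apply, BoundedContinuousFunction.star_apply, h', hfg,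
      star_mul', RCLike.star_def, Complex.conj_ofReal]
    ring
  have h2 := inner_of_halfExp S h
  rw [map_star, map_star, ContinuousLinearMap.star_eq_adjoint, ContinuousLinearMap.star_eq_adjoint,
    ContinuousLinearMap.adjoint_inner_left, ContinuousLinearMap.adjoint_inner_left] at h2
  exact h2

lemma apply_vac_eq_exp (f g : ℝ →ᵇ ℂ) (hf : HasCompactSupport (f : ℝ → ℂ))
    (hfg : ∀ u, g u = f u * ((Real.exp u : ℝ) : ℂ)) :
    S.D.apply f S.vac = S.D.apply g S.vac := by
  obtain ⟨g₁, hg₁⟩ := exists_bcf (fun u => f u * ((Real.exp (u / 2) : ℝ) : ℂ)) (by fun_prop)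
    hf.mul_right
  rw [apply_vac_eq S f g₁ (fun u => by rw [hg₁])]
  apply halfExp_vac S
  intro u
  rw [hg₁, hfg, mul_assoc, ← Complex.ofReal_mul, ← Real.exp_add, add_halves]

lemma exists_quot (t : ℝ) : ∃ q : ℝ → ℂ, Continuous q ∧
    ∀ u, q u * (((Real.exp u : ℝ) : ℂ) - 1) = character t u - 1 := by
  let e₁ : ℝ → ℂ := fun u => character t u
  let e₂ : ℝ → ℝ := Real.exp
  have hd₁ : Differentiable ℝ e₁ := by
    change Differentiable ℝ fun u : ℝ => Complex.exp (Complex.I * ((t * u : ℝ) : ℂ))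
    have : Differentiable ℝ fun u : ℝ => ((t * u : ℝ) : ℂ) :=
      Complex.ofRealCLM.differentiable.comp (differentiable_id.const_mul t)
    exact (this.const_mul _).cexp
  have hc₁ : Continuous (dslope e₁ 0) := by
    rw [continuous_iff_continuousAt]
    intro u
    by_cases hu : u = 0
    · subst hu; exact continuousAt_dslope_same.2 (hd₁ 0)
    · exact (continuousAt_dslope_of_ne hu).2 hd₁.continuous.continuousAt
  have hc₂ : Continuous (dslope e₂ 0) := by
    rw [continuous_iff_continuousAt]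
    intro u
    by_cases hu : u = 0
    · subst hu; exact continuousAt_dslope_same.2 (Real.differentiable_exp 0)
    · exact (continuousAt_dslope_of_ne hu).2 Real.continuous_exp.continuousAt
  have hs₂ : ∀ u, u * dslope e₂ 0 u = Real.exp u - 1 := by
    intro u
    have := sub_smul_dslope e₂ 0 u
    simpa [e₂] using this
  have hs₁ : ∀ u : ℝ, (u : ℂ) * dslope e₁ 0 u = character t u - 1 := by
    intro u
    have := sub_smul_dslope e₁ 0 u
    simpa [e₁, character_apply] using this
  have hne : ∀ u, dslope e₂ 0 u ≠ 0 := by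
    intro u
    by_cases hu : u = 0
    · subst hu
      rw [dslope_same]
      simp [e₂]
    · intro h0
      have := hs₂ u
      rw [h0, mul_zero] at this
      have h1 : Real.exp u = 1 := by linarith
      exact hu (Real.exp_eq_one_iff u |>.1 h1)
  refine ⟨fun u => dslope e₁ 0 u / ((dslope e₂ 0 u : ℝ) : ℂ), ?_, fun u => ?_⟩
  · exact hc₁.div (Complex.continuous_ofReal.comp hc₂) fun u => by exact_mod_cast hne u
  · have h2 : ((Real.exp u : ℝ) : ℂ) - 1 = (u : ℂ) * ((dslope e₂ 0 u : ℝ) : ℂ) := by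
      exact_mod_cast (hs₂ u).symm
    have h3 : ((dslope e₂ 0 u : ℝ) : ℂ) ≠ 0 := by exact_mod_cast hne u
    rw [h2, ← hs₁]
    field_simp

lemma wave_vac (t : ℝ) : S.D.wave t S.vac = S.vac := by
  obtain ⟨q, hq, hq'⟩ := exists_quot t
  have key : ∀ k : ℝ →ᵇ ℂ, HasCompactSupport (k : ℝ → ℂ) →
      S.D.wave t (S.D.apply k S.vac) = S.D.apply k S.vac := by
    intro k hk
    obtain ⟨f, hf⟩ := exists_bcf (fun u => q u * k u) (by fun_prop) hk.mul_left
    have hfc : HasCompactSupport (f : ℝ → ℂ) := by rw [hf]; exact hk.mul_left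
    obtain ⟨g, hg⟩ := exists_bcf (fun u => f u * ((Real.exp u : ℝ) : ℂ)) (by fun_prop)
      hfc.mul_right
    have h1 := apply_vac_eq_exp S f g hfc (fun u => by rw [hg])
    have h2 : character t * k = k + (g - f) := by
      ext u
      have := hq' u
      simp only [BoundedContinuousFunction.mul_apply, BoundedContinuousFunction.add_apply,
        BoundedContinuousFunction.sub_apply, hg, hf]
      linear_combination (-k u) * this
    rw [wave, apply_mul_apply, h2, map_add, map_sub]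
    simp [h1]
  apply eq_of_forall_dist_le
  intro ε hε
  obtain ⟨k, hk, hk'⟩ := S.D.window S.vac (ε / 2) (by linarith)
  have h1 : S.D.wave t S.vac - S.vac =
      (S.D.apply k S.vac - S.vac) - S.D.wave t (S.D.apply k S.vac - S.vac) := by
    rw [map_sub, key k hk]; abel
  rw [dist_eq_norm, h1]
  refine (norm_sub_le _ _).trans ?_
  rw [norm_wave]
  linarith

lemma flow_apply (t : ℝ) (a : H →L[ℂ] H) (ζ : H) :
    S.flow t a ζ = S.D.wave t (a (S.D.wave (-t) ζ)) := rfl

lemma flow_vac (t : ℝ) (a : H →L[ℂ] H) : S.flow t a S.vac = S.D.wave t (a S.vac) := by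
  rw [flow_apply, wave_vac]

lemma flow_mem {a : H →L[ℂ] H} (ha : a ∈ S.M) (t : ℝ) : S.flow t a ∈ S.M := S.flow_mem t a ha

lemma star_flow (t : ℝ) (a : H →L[ℂ] H) : star (S.flow t a) = S.flow t (star a) := by
  simp only [ModularDatum.flow, star_mul, star_wave, neg_neg, mul_assoc]

lemma flow_mul (t : ℝ) (a b : H →L[ℂ] H) : S.flow t (a * b) = S.flow t a * S.flow t b := by
  ext ζ
  simp only [mul_apply_eq_comp, flow_apply, wave_neg_wave]

lemma norm_flow_apply_le (t : ℝ) (a : H →L[ℂ] H) (ζ : H) : ‖S.flow t a ζ‖ ≤ ‖a‖ * ‖ζ‖ := by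
  rw [flow_apply, norm_wave]
  refine (a.le_opNorm _).trans ?_
  rw [norm_wave]

lemma continuous_flow_apply (a : H →L[ℂ] H) (ζ : H) : Continuous fun t => S.flow t a ζ :=
  continuous_wave_comp S.D continuous_id
    (a.continuous.comp (continuous_wave_comp S.D continuous_neg continuous_const))

lemma flow_flow_apply (r t : ℝ) (a : H →L[ℂ] H) (ζ : H) :
    S.D.wave r (S.flow t a (S.D.wave (-r) ζ)) = S.flow (t + r) a ζ := by
  simp only [flow_apply, wave_wave]
  rw [add_comm r t, neg_add]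

/-- approximation of a vector with band-limited spectrum by `x ξ`, with control on `x⋆ ξ` -/
lemma exists_approx {a b : ℝ} {h : H} (hh : S.D.SupportedIn (Set.Icc a b) h) {ε : ℝ}
    (hε : 0 < ε) : ∃ x ∈ S.M, ‖x S.vac - h‖ ≤ ε ∧
      ‖star x S.vac‖ ≤ Real.exp (b / 2) * ‖h‖ + ε := by
  let g₀ : ℝ →ᵇ ℂ := BoundedContinuousFunction.ofNormedAddCommGroup
    (fun u => ((Real.exp (min u b / 2) : ℝ) : ℂ)) (by fun_prop) (Real.exp (b / 2)) (fun u => by
      rw [Complex.norm_real, Real.norm_eq_abs, abs_of_pos (Real.exp_pos _)]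
      gcongr
      exact min_le_right _ _)
  have hg₀ : ‖g₀‖ ≤ Real.exp (b / 2) :=
    BoundedContinuousFunction.norm_ofNormedAddCommGroup_le _ (Real.exp_pos _).le _
  have hE : S.D.HalfExp h (S.D.apply g₀ h) := by
    intro f g hfg
    rw [apply_mul_apply, ← sub_eq_zero, ← sub_apply, ← map_sub]
    apply hh
    intro u hu
    simp only [BoundedContinuousFunction.sub_apply, BoundedContinuousFunction.mul_apply, hfg]
    change f u * ((Real.exp (min u b / 2) : ℝ) : ℂ) - _ = 0
    rw [min_eq_left hu.2, sub_self]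
  have hmem : (h, S.J (S.D.apply g₀ h)) ∈ closure (Set.range fun a : S.M =>
      ((a : H →L[ℂ] H) S.vac, star (a : H →L[ℂ] H) S.vac)) := by
    rw [S.tomita]
    simpa [S.J_J] using hE
  obtain ⟨_, ⟨x, rfl⟩, hx⟩ := Metric.mem_closure_iff.1 hmem ε hε
  rw [Prod.dist_eq, max_lt_iff] at hx
  refine ⟨x, x.2, ?_, ?_⟩
  · rw [← dist_eq_norm, dist_comm]; exact hx.1.le
  · have h1 := hx.2
    rw [dist_comm, dist_eq_norm] at h1
    have h2 : ‖S.J (S.D.apply g₀ h)‖ ≤ Real.exp (b / 2) * ‖h‖ := by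
      rw [S.J.norm_map]
      exact (norm_apply_apply_le _ _ _).trans (by gcongr)
    have h3 := norm_le_insert' (star (x : H →L[ℂ] H) S.vac) (S.J (S.D.apply g₀ h))
    simp only at h1
    linarith

/-- the averaged flow -/
noncomputable def avgFlow (a : H →L[ℂ] H) (k : ℕ) : H →L[ℂ] H :=
  LinearMap.mkContinuous
    { toFun := fun ζ => avg (fun t => S.flow t a ζ) k
      map_add' := fun x y => by
        simp only [map_add]
        exact avg_add (continuous_flow_apply S a x) (continuous_flow_apply S a y) k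
      map_smul' := fun c x => by
        simp only [map_smul, RingHom.id_apply]
        exact (avg_clm ((c • ContinuousLinearMap.id ℂ H).restrictScalars ℝ)
          (continuous_flow_apply S a x) k).symm } ‖a‖
    (fun ζ => norm_avg_le (fun t => norm_flow_apply_le S t a ζ) k)

lemma inner_avgFlow (a : H →L[ℂ] H) (k : ℕ) (η ζ : H) :
    ⟪η, avgFlow S a k ζ⟫_ℂ = avg (fun t => ⟪η, S.flow t a ζ⟫_ℂ) k :=
  avg_clm ((innerSL ℂ η).restrictScalars ℝ) (continuous_flow_apply S a ζ) k

/-- weak ergodic theorem for an ergodic state -/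
lemma tendsto_avg_inner_flow (herg : S.Ergodic) (ω : Ultrafilter ℕ) (hω : (ω : Filter ℕ) ≤ atTop)
    {a : H →L[ℂ] H} (ha : a ∈ S.M) (η ζ : H) :
    Tendsto (avg fun t => ⟪η, S.flow t a ζ⟫_ℂ) ω (𝓝 (⟪S.vac, a S.vac⟫_ℂ * ⟪η, ζ⟫_ℂ)) := by
  obtain ⟨b, hb⟩ := exists_weak_lim ω (avgFlow S a) ‖a‖
    (fun k => LinearMap.mkContinuous_norm_le _ (norm_nonneg _) _)
  simp only [inner_avgFlow] at hb
  have hbM : b ∈ S.M := by
    apply mem_of_commute
    intro m hm
    ext ζ
    apply ext_inner_left ℂ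
    intro η
    have h1 := hb η (m ζ)
    have h2 := hb (ContinuousLinearMap.adjoint m η) ζ
    simp only [ContinuousLinearMap.adjoint_inner_left] at h2
    have h3 : ∀ t, S.flow t a (m ζ) = m (S.flow t a ζ) := fun t =>
      congrArg (fun c : H →L[ℂ] H => c ζ)
        (VonNeumannAlgebra.mem_commutant_iff.1 hm _ (flow_mem S ha t))
    simp only [h3] at h1
    exact tendsto_nhds_unique h2 h1
  have hfix : ∀ r, S.flow r b = b := by
    intro r
    ext ζ
    apply ext_inner_left ℂ
    intro η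
    have h1 := hb (S.D.wave (-r) η) (S.D.wave (-r) ζ)
    simp only [← inner_wave_right, flow_flow_apply] at h1
    have h2 := hb η ζ
    have h3 := (tendsto_avg_shift (f := fun t => ⟪η, S.flow t a ζ⟫_ℂ)
      (continuous_const.inner (continuous_flow_apply S a ζ)) (C := ‖η‖ * (‖a‖ * ‖ζ‖))
      (fun t => (norm_inner_le_norm _ _).trans (by gcongr; exact norm_flow_apply_le S t a ζ))
      r).mono_left hω
    have h4 := h3.add h2
    simp only [sub_add_cancel, zero_add] at h4
    exact tendsto_nhds_unique h1 h4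
  obtain ⟨c, hc⟩ := herg b hbM hfix
  have hc' : c = ⟪S.vac, a S.vac⟫_ℂ := by
    have h1 := hb S.vac S.vac
    have h2 : ∀ t, ⟪S.vac, S.flow t a S.vac⟫_ℂ = ⟪S.vac, a S.vac⟫_ℂ := fun t => by
      rw [flow_vac, inner_wave_right, wave_vac]
    simp only [h2] at h1
    have h3 : Tendsto (fun k => avg (fun _ : ℝ => ⟪S.vac, a S.vac⟫_ℂ) k) ω
        (𝓝 ⟪S.vac, a S.vac⟫_ℂ) := by
      refine (tendsto_const_nhds.congr' ?_).mono_left hω
      filter_upwards [eventually_gt_atTop 0] with k hk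
      rw [avg_const _ hk]
    have h4 := tendsto_nhds_unique h1 h3
    rw [hc] at h4
    simpa [inner_smul_right, inner_self_eq_norm_sq_to_K, S.norm_vac] using h4
  have h1 := hb η ζ
  rw [hc, hc'] at h1
  simpa [inner_smul_right] using h1

end Crest.Agent.R84
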