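import Crest.Agent.R84.Modular

set_option autoImplicit false

namespace Crest.Agent.R84

open Crest.OpAlg Crest.OpAlg.LineCalculus MeasureTheory Filter
open scoped Topology InnerProductSpace BoundedContinuousFunction FourierTransform SchwartzMap
  ContDiff

lemma exists_bump_fourier : ∃ F : ℝ → ℂ, Integrable F ∧ ∃ b : ℝ → ℂ, Continuous b ∧
    (∀ u, |u| ≤ 1 → b u = 1) ∧ (∀ u, 4 ≤ |u| → b u = 0) ∧
    ∀ u, b u = ∫ τ : ℝ, F τ * character (2 * Real.pi * τ) u := by
  let β : ContDiffBump (0 : ℝ) := ⟨1, 4, by norm_num, by norm_num⟩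
  let b : ℝ → ℂ := fun u => (β u : ℂ)
  have hb1 : HasCompactSupport b := β.hasCompactSupport.comp_left (g := fun x : ℝ => (x : ℂ)) rfl
  have hb2 : ContDiff ℝ ∞ b := Complex.ofRealCLM.contDiff.comp β.contDiff
  let B : 𝓢(ℝ, ℂ) := hb1.toSchwartzMap hb2
  have hint : Integrable (𝓕 b) := (𝓕 B).integrable
  refine ⟨𝓕 b, hint, b, hb2.continuous, fun u hu => ?_, fun u hu => ?_, fun u => ?_⟩
  · have : β u = 1 := β.one_of_mem_closedBall (by simpa using hu)
    simp [b, this]
  · have : β u = 0 := β.zero_of_le_dist (by simpa using hu)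
    simp [b, this]
  · have h := hb2.continuous.fourierInv_fourier_eq B.integrable hint
    conv_lhs => rw [← h]
    rw [Real.fourierInv_eq']
    congr 1
    ext τ
    rw [smul_eq_mul, mul_comm, character_apply]
    congr 2
    simp only [RCLike.inner_apply, conj_trivial]
    push_cast
    ring

variable {H : Type*} [NormedAddCommGroup H] [InnerProductSpace ℂ H] [CompleteSpace H]

lemma supp_zero (D : LineCalculus H) (K : Set ℝ) : D.SupportedIn K 0 := fun _ _ => map_zero _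

lemma supp_add {D : LineCalculus H} {K : Set ℝ} {x y : H} (hx : D.SupportedIn K x)
    (hy : D.SupportedIn K y) : D.SupportedIn K (x + y) := fun f hf => by
  rw [map_add, hx f hf, hy f hf, add_zero]

lemma supp_sub {D : LineCalculus H} {K : Set ℝ} {x y : H} (hx : D.SupportedIn K x)
    (hy : D.SupportedIn K y) : D.SupportedIn K (x - y) := fun f hf => by
  rw [map_sub, hx f hf, hy f hf, sub_zero]

lemma supp_smul {D : LineCalculus H} {K : Set ℝ} {x : H} (hx : D.SupportedIn K x) (c : ℂ) :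
    D.SupportedIn K (c • x) := fun f hf => by
  rw [map_smul, hx f hf, smul_zero]

lemma supp_wave {D : LineCalculus H} {K : Set ℝ} {x : H} (hx : D.SupportedIn K x) (t : ℝ) :
    D.SupportedIn K (D.wave t x) := fun f hf => by
  rw [wave, apply_mul_apply]
  exact hx _ fun u hu => by simp [hf u hu]

variable (S : ModularDatum H)

lemma integrable_smul_flow {F : ℝ → ℂ} (hF : Integrable F) (κ : ℝ) (v : H →L[ℂ] H) (ζ : H) :
    Integrable fun τ : ℝ => F τ • S.flow (κ * τ) v ζ := by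
  have hc : Continuous fun τ : ℝ => S.flow (κ * τ) v ζ :=
    (continuous_flow_apply S v ζ).comp (continuous_const.mul continuous_id)
  refine Integrable.mono' (hF.norm.mul_const (‖v‖ * ‖ζ‖)) ?_ ?_
  · exact hF.aestronglyMeasurable.smul hc.aestronglyMeasurable
  · refine Eventually.of_forall fun τ => ?_
    rw [norm_smul]
    gcongr
    exact norm_flow_apply_le S _ v ζ

lemma exists_intFlow {F : ℝ → ℂ} (hF : Integrable F) (κ : ℝ) {v : H →L[ℂ] H} (hv : v ∈ S.M) :
    ∃ v' ∈ S.M, ‖v'‖ ≤ (∫ τ, ‖F τ‖) * ‖v‖ ∧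
      v' S.vac = ∫ τ : ℝ, F τ • S.D.wave (κ * τ) (v S.vac) := by
  have hb : ∀ ζ : H, ‖∫ τ : ℝ, F τ • S.flow (κ * τ) v ζ‖ ≤ ((∫ τ, ‖F τ‖) * ‖v‖) * ‖ζ‖ := by
    intro ζ
    rw [mul_assoc, ← integral_mul_const]
    apply norm_integral_le_of_norm_le (hF.norm.mul_const _)
    refine Eventually.of_forall fun τ => ?_
    rw [norm_smul]
    gcongr
    exact norm_flow_apply_le S _ v ζ
  let v' : H →L[ℂ] H := LinearMap.mkContinuous
    { toFun := fun ζ => ∫ τ : ℝ, F τ • S.flow (κ * τ) v ζ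
      map_add' := fun x y => by
        simp only [map_add, smul_add]
        exact integral_add (integrable_smul_flow S hF κ v x) (integrable_smul_flow S hF κ v y)
      map_smul' := fun c x => by
        simp only [map_smul, RingHom.id_apply]
        rw [← integral_smul]
        congr 1
        ext τ
        rw [smul_comm] } _ hb
  have hv' : ∀ ζ, v' ζ = ∫ τ : ℝ, F τ • S.flow (κ * τ) v ζ := fun ζ => rfl
  refine ⟨v', ?_, ?_, ?_⟩
  · apply mem_of_commute
    intro m hm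
    ext ζ
    change m (v' ζ) = v' (m ζ)
    rw [hv', hv', ← m.integral_comp_comm (integrable_smul_flow S hF κ v ζ)]
    congr 1
    ext τ
    rw [map_smul]
    congr 1
    exact (congrArg (fun c : H →L[ℂ] H => c ζ)
        (VonNeumannAlgebra.mem_commutant_iff.1 hm _ (flow_mem S hv (κ * τ)))).symm
  · exact LinearMap.mkContinuous_norm_le _
      (mul_nonneg (integral_nonneg fun _ => norm_nonneg _) (norm_nonneg _)) _
  · rw [hv']
    simp only [flow_vac]

omit S in
lemma exists_smooth : ∃ C₀ : ℝ, 0 ≤ C₀ ∧ ∀ (S : ModularDatum H) (s δ : ℝ), 0 < δ →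
    ∀ v ∈ S.M, ∃ v' ∈ S.M, ‖v'‖ ≤ C₀ * ‖v‖ ∧
      S.D.SupportedIn (Set.Icc (s - 4 * δ) (s + 4 * δ)) (v' S.vac) ∧
      ∀ w, S.D.SupportedIn (Set.Icc (s - δ) (s + δ)) w → ‖v' S.vac - w‖ ≤ C₀ * ‖v S.vac - w‖ := by
  obtain ⟨F, hF, b, hb, hb1, hb0, hbF⟩ := exists_bump_fourier
  have hC0 : 0 ≤ ∫ τ, ‖F τ‖ := integral_nonneg fun _ => norm_nonneg _
  refine ⟨∫ τ, ‖F τ‖, hC0, fun S s δ hδ v hv => ?_⟩
  let G : ℝ → ℂ := fun τ => F τ * character (2 * Real.pi * τ) (-s / δ)
  have hGn : ∀ τ, ‖G τ‖ = ‖F τ‖ := fun τ => by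
    simp only [G, norm_mul, norm_character_apply, mul_one]
  have hG : Integrable G := by
    have hc : Continuous fun τ : ℝ => character (2 * Real.pi * τ) (-s / δ) := by
      simp only [character_apply]
      fun_prop
    have hm : AEStronglyMeasurable G volume := hF.aestronglyMeasurable.mul hc.aestronglyMeasurable
    exact Integrable.mono' hF.norm hm (Eventually.of_forall fun τ => (hGn τ).le)
  have hbn : ∀ u, ‖b u‖ ≤ ∫ τ, ‖F τ‖ := fun u => by
    rw [hbF]
    apply norm_integral_le_of_norm_le hF.norm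
    exact Eventually.of_forall fun τ => by simp only [norm_mul, norm_character_apply, mul_one, le_rfl]
  let ψ : ℝ →ᵇ ℂ := BoundedContinuousFunction.ofNormedAddCommGroup
    (fun u => b ((u - s) / δ)) (by fun_prop) (∫ τ, ‖F τ‖) (fun u => hbn _)
  have hψn : ‖ψ‖ ≤ ∫ τ, ‖F τ‖ :=
    BoundedContinuousFunction.norm_ofNormedAddCommGroup_le _ hC0 _
  have hψ' : ∀ u, ψ u = b ((u - s) / δ) := fun u => rfl
  have hψ : ∀ u, ψ u = ∫ τ : ℝ, G τ * character (2 * Real.pi / δ * τ) u := by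
    intro u
    rw [hψ', hbF]
    congr 1
    ext τ
    simp only [G, character_apply, mul_assoc, ← Complex.exp_add]
    congr 2
    rw [← mul_add, ← Complex.ofReal_add]
    congr 2
    field_simp
    ring
  obtain ⟨v', hv'M, hv'n, hv'⟩ := exists_intFlow S hG (2 * Real.pi / δ) hv
  rw [integral_smul_wave S.D hG _ ψ hψ] at hv'
  simp only [hGn] at hv'n
  refine ⟨v', hv'M, hv'n, ?_, fun w hw => ?_⟩
  · intro f hf
    rw [hv', apply_mul_apply]
    have : f * ψ = 0 := by
      ext u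
      by_cases hu : u ∈ Set.Icc (s - 4 * δ) (s + 4 * δ)
      · simp [hf u hu]
      · have : ψ u = 0 := by
          rw [hψ']
          apply hb0
          rw [abs_div, abs_of_pos hδ, le_div_iff₀ hδ]
          simp only [Set.mem_Icc, not_and_or, not_le] at hu
          rcases hu with hu | hu
          · rw [le_abs]; right; linarith
          · rw [le_abs]; left; linarith
        simp [this]
    rw [this, map_zero]
    rfl
  · have h1 : S.D.apply ψ w = w := by
      have := hw (ψ - 1) (fun u hu => by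
        have : ψ u = 1 := by
          rw [hψ']
          apply hb1
          rw [abs_div, abs_of_pos hδ, div_le_one hδ, abs_le]
          constructor <;> linarith [hu.1, hu.2]
        simp [this])
      rw [map_sub, map_one] at this
      exact sub_eq_zero.1 this
    rw [hv']
    conv_lhs => rw [← h1]
    rw [← map_sub]
    exact (norm_apply_apply_le _ _ _).trans (by gcongr)

lemma exists_trunc (M : VonNeumannAlgebra H) {y : H →L[ℂ] H} (hy : y ∈ M) {R : ℝ} (hR : 0 < R)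
    (ξ : H) : ∃ v ∈ M, ‖v‖ ≤ R ∧ ‖v ξ - y ξ‖ ≤ ‖(star y * y) ξ‖ / R := by
  let P : H →L[ℂ] H := 1 + ((R ^ 2)⁻¹ : ℝ) • (star y * y)
  have hP : ∀ η, P η = η + ((R ^ 2)⁻¹ : ℝ) • (star y * y) η := fun η => rfl
  have hin : ∀ η : H, ⟪(star y * y) η, η⟫_ℂ = ((‖y η‖ ^ 2 : ℝ) : ℂ) := by
    intro η
    rw [mul_apply_eq_comp, ContinuousLinearMap.star_eq_adjoint,
      ContinuousLinearMap.adjoint_inner_left, inner_self_eq_norm_sq_to_K]
    simp
  have hPin : ∀ η : H, ⟪P η, η⟫_ℂ = ((‖η‖ ^ 2 + (R ^ 2)⁻¹ * ‖y η‖ ^ 2 : ℝ) : ℂ) := by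
    intro η
    rw [hP, inner_add_left, ← Complex.coe_smul, inner_smul_left, hin, inner_self_eq_norm_sq_to_K]
    simp
  have hunit : IsUnit P := by
    apply ContinuousLinearMap.isUnit_of_forall_le_norm_inner_map P (c := 1) one_pos
    intro η
    rw [hPin, Complex.norm_real, Real.norm_eq_abs, abs_of_nonneg (by positivity)]
    simp only [NNReal.coe_one, mul_one, le_add_iff_nonneg_right]
    positivity
  obtain ⟨u, hu⟩ := hunit
  have hPM : P ∈ M := by
    apply add_mem (one_mem _)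
    rw [← Complex.coe_smul]
    exact smul_mem' M _ (mul_mem (star_mem hy) hy)
  have huM : (↑u⁻¹ : H →L[ℂ] H) ∈ M := by
    apply mem_of_commute
    intro m hm
    have h1 : Commute m u := by
      rw [hu]
      exact (VonNeumannAlgebra.mem_commutant_iff.1 hm _ hPM).symm
    exact h1.units_inv_right
  have hn : ‖y * ↑u⁻¹‖ ≤ R := by
    apply ContinuousLinearMap.opNorm_le_bound _ hR.le
    intro ζ
    set η := (↑u⁻¹ : H →L[ℂ] H) ζ with hη
    have h1 : P η = ζ := by
      rw [← hu, hη, ← mul_apply_eq_comp, u.mul_inv]; rfl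
    change ‖y η‖ ≤ R * ‖ζ‖
    have h2 : ‖η‖ ^ 2 + (R ^ 2)⁻¹ * ‖y η‖ ^ 2 ≤ ‖ζ‖ * ‖η‖ := by
      have := norm_inner_le_norm (𝕜 := ℂ) (P η) η
      rw [hPin, Complex.norm_real, Real.norm_eq_abs, abs_of_nonneg (by positivity), h1] at this
      exact this
    have h3 : (R ^ 2)⁻¹ * ‖y η‖ ^ 2 ≤ ‖ζ‖ ^ 2 := by
      nlinarith [sq_nonneg (‖η‖ - ‖ζ‖), norm_nonneg η, norm_nonneg ζ, sq_nonneg ‖ζ‖, sq_nonneg ‖η‖]
    rw [inv_mul_le_iff₀ (by positivity), ← mul_pow] at h3
    exact le_of_sq_le_sq h3 (by positivity)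
  have hmem : (y * ↑u⁻¹ : H →L[ℂ] H) ∈ M := mul_mem hy huM
  have h1 : (y * ↑u⁻¹ : H →L[ℂ] H) (P ξ) = y ξ := by
    rw [← hu, ← mul_apply_eq_comp, mul_assoc, u.inv_mul, mul_one]
  generalize (y * ↑u⁻¹ : H →L[ℂ] H) = v at hn hmem h1
  have h2 : v ξ - y ξ = v (-(((R ^ 2)⁻¹ : ℝ) • (star y * y) ξ)) := by
    rw [← h1, ← map_sub, hP, sub_add_cancel_left]
  have h3 := v.le_opNorm (-(((R ^ 2)⁻¹ : ℝ) • (star y * y) ξ))
  rw [norm_neg, norm_smul, Real.norm_eq_abs, abs_of_nonneg (by positivity), ← h2] at h3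
  refine ⟨v, hmem, hn, h3.trans ?_⟩
  calc ‖v‖ * ((R ^ 2)⁻¹ * ‖(star y * y) ξ‖) ≤ R * ((R ^ 2)⁻¹ * ‖(star y * y) ξ‖) := by
        gcongr
    _ = _ := by field_simp

end Crest.Agent.R84
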